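import Vale.Agent.P317Z.Defs

/-!
The independence oracles of `k` matroids.
-/

namespace Vale.Agent.N317

open Vale.Agent.P317Z

/-- The independence oracles of `k` matroids as one set of words: pairs of an index `i` in binary
and the characteristic word of an independent set of the `i`-th matroid. -/
def oracles {k n : ℕ} (M : Fin k → Matroid (Fin n)) : Set (List Bool) :=
  {w | ∃ (i : Fin k) (S : List Bool), w = pair (i : ℕ).bits S ∧
    (M i).Indep {x : Fin n | S.getD x false = true}}

end Vale.Agent.N317
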