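import Vale.Agent.P317Z.Prob
import Mathlib.Combinatorics.Matroid.Rank.ENat

/-!
A lower bound for the number of oracle calls: sparse paving matroids.
-/

namespace Vale.Agent.N317

open Vale.Agent.P317Z Finset

/-- A run depends on the oracle only through the words which are asked. -/
theorem exists_asked (M : Machine) (O : Set (List Bool)) (ρ : List Bool) : ∀ c : M.Cfg,
    ∃ Q : Finset (List Bool), Q.card ≤ M.calls O c ρ ∧
      ∀ O' : Set (List Bool), (∀ w ∈ Q, w ∈ O ↔ w ∈ O') → M.run O' c ρ = M.run O c ρ := by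
  classical
  induction ρ with
  | nil => exact fun c => ⟨∅, Nat.zero_le _, fun _ _ => rfl⟩
  | cons b ρ ih =>
    intro c
    obtain ⟨Q, h1, h2⟩ := ih (M.step O c b)
    by_cases hc : c.l = some M.query
    · refine ⟨insert (c.stk M.tape) Q, ?_, fun O' h => ?_⟩
      · rw [Machine.calls, if_pos hc]
        exact (card_insert_le _ _).trans (by omega)
      · have h3 : M.step O' c b = M.step O c b := by
          unfold Machine.step
          rw [hc]
          simp only [if_true, h _ (mem_insert_self _ _)]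
        rw [Machine.run_cons, Machine.run_cons, h3]
        exact h2 O' fun w hw => h w (mem_insert_of_mem hw)
    · refine ⟨Q, ?_, fun O' h => ?_⟩
      · rw [Machine.calls, if_neg hc]
        omega
      · have h3 : M.step O' c b = M.step O c b := by
          unfold Machine.step
          cases hl : c.l with
          | none => rfl
          | some l =>
            have : l ≠ M.query := fun e => hc (by rw [hl, e])
            simp only [if_neg this]
        rw [Machine.run_cons, Machine.run_cons, h3]
        exact h2 O' h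

/-- Rank and bases of a matroid whose independent sets have at most `r` elements, with equality
for one of them. -/
theorem rank_of_bound {α : Type} [Finite α] {M : Matroid α} {r : ℕ}
    (h1 : ∀ I, M.Indep I → I.ncard ≤ r) {I₀ : Set α} (h2 : M.Indep I₀) (h3 : I₀.ncard = r) :
    M.eRank = r ∧ ∀ B, M.IsBase B ↔ M.Indep B ∧ B.ncard = r := by
  have key : ∀ B, M.Indep B → B.ncard = r → M.IsBase B := fun B hB hr =>
    hB.isBase_of_maximal fun J hJ hBJ =>
      Set.eq_of_subset_of_ncard_le hBJ ((h1 J hJ).trans hr.ge) (Set.toFinite _)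
  have h4 := key I₀ h2 h3
  refine ⟨by rw [← h4.encard_eq_eRank, ← h3, (Set.toFinite I₀).cast_ncard_eq], fun B =>
    ⟨fun hB => ⟨hB.indep, by rw [hB.ncard_eq_ncard_of_isBase h4, h3]⟩, fun h => key B h.1 h.2⟩⟩

variable {n : ℕ}

/-- A family of `r`-sets no two of which differ by one exchange. -/
def Sparse (r : ℕ) (H : Finset (Finset (Fin n))) : Prop :=
  (∀ A ∈ H, A.card = r) ∧
    ∀ (I : Finset (Fin n)) (x y : Fin n), x ∉ I → y ∉ I → insert x I ∈ H → insert y I ∈ H → x = y

theorem Sparse.mono {r : ℕ} {G H : Finset (Finset (Fin n))} (h : Sparse r G) (hH : H ⊆ G) :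
    Sparse r H :=
  ⟨fun A hA => h.1 A (hH hA), fun I x y hx hy h1 h2 => h.2 I x y hx hy (hH h1) (hH h2)⟩

open Classical in
/-- The sparse paving matroid of rank `r` with the circuit-hyperplanes `H`. -/
noncomputable def pav (r : ℕ) (H : Finset (Finset (Fin n))) (hH : Sparse r H) : Matroid (Fin n) :=
  (IndepMatroid.ofFinite (E := Set.univ) Set.finite_univ
    (fun I => I.ncard ≤ r ∧ I.toFinset ∉ H ∨ I = ∅) (Or.inr rfl)
    (by
      rintro I J (hJ | rfl) hIJ
      · refine Or.inl ⟨(Set.ncard_le_ncard hIJ).trans hJ.1, fun h => hJ.2 ?_⟩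
        have h1 := hH.1 _ h
        rw [← Set.ncard_eq_toFinset_card'] at h1
        rwa [← Set.eq_of_subset_of_ncard_le hIJ (hJ.1.trans h1.ge)]
      · exact Or.inr (Set.subset_empty_iff.1 hIJ))
    (by
      rintro I J - (hJ | rfl) hIJ
      · by_contra hc
        push Not at hc
        have h1 : ∀ e ∈ J, e ∉ I → insert e I.toFinset ∈ H := fun e he he' => by
          have h2 := (hc e he he').1
          rw [Set.ncard_insert_of_notMem he'] at h2
          have h3 := h2 (by omega)
          convert h3 using 1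
          ext z
          simp
        obtain ⟨x, hx, hx'⟩ := Set.exists_mem_notMem_of_ncard_lt_ncard hIJ
        have h2 : J ⊆ insert x I := fun y hy => by
          by_cases hy' : y ∈ I
          · exact Or.inr hy'
          · exact Or.inl (hH.2 I.toFinset y x (by simpa using hy') (by simpa using hx')
              (h1 y hy hy') (h1 x hx hx'))
        have h3 : J = insert x I := Set.eq_of_subset_of_ncard_le h2
          (by rw [Set.ncard_insert_of_notMem hx']; omega)
        refine hJ.2 ?_
        have h4 : J.toFinset = insert x I.toFinset := by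
          ext z
          simp [h3]
        rw [h4]
        exact h1 x hx hx'
      · simp at hIJ)
    (fun _ _ => Set.subset_univ _)).matroid

open Classical in
theorem pav_indep {r : ℕ} {H : Finset (Finset (Fin n))} (hH : Sparse r H) (I : Set (Fin n)) :
    (pav r H hH).Indep I ↔ I.ncard ≤ r ∧ I.toFinset ∉ H ∨ I = ∅ := Iff.rfl

theorem pav_E {r : ℕ} {H : Finset (Finset (Fin n))} (hH : Sparse r H) :
    (pav r H hH).E = Set.univ := rfl

theorem pav_spec {r : ℕ} {H : Finset (Finset (Fin n))} (hH : Sparse r H)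
    (h : H.card < n.choose r) : (pav r H hH).eRank = r ∧
      Nat.card {B : Set (Fin n) // (pav r H hH).IsBase B ∧ (pav r H hH).IsBase B} + H.card =
        n.choose r := by
  classical
  have hs : H ⊆ powersetCard r univ := fun A hA => mem_powersetCard_univ.2 (hH.1 A hA)
  have hc : (powersetCard r (univ : Finset (Fin n))).card = n.choose r := by
    rw [card_powersetCard, card_univ, Fintype.card_fin]
  obtain ⟨A, hA, hA'⟩ := exists_mem_notMem_of_card_lt_card (h.trans_eq hc.symm)
  rw [mem_powersetCard_univ] at hA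
  obtain ⟨h1, h2⟩ := rank_of_bound (M := pav r H hH) (r := r) (fun I hI => by
      rcases (pav_indep hH I).1 hI with hI | rfl
      · exact hI.1
      · simp) (I₀ := A) ((pav_indep hH _).2 (Or.inl ⟨by simp [hA], by simpa using hA'⟩))
    (by simp [hA])
  refine ⟨h1, ?_⟩
  have h3 : Nat.card {B : Set (Fin n) // (pav r H hH).IsBase B ∧ (pav r H hH).IsBase B} =
      (powersetCard r univ \ H).card := by
    rw [← card_image_of_injective _ (coe_injective (α := Fin n))]
    refine Nat.subtype_card _ fun B => ?_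
    rw [and_self, h2, pav_indep, mem_image]
    constructor
    · rintro ⟨C, hC, rfl⟩
      rw [mem_sdiff, mem_powersetCard_univ] at hC
      exact ⟨Or.inl ⟨by simp [hC.1], by simpa using hC.2⟩, by simp [hC.1]⟩
    · rintro ⟨hB | rfl, hB'⟩
      · exact ⟨B.toFinset, mem_sdiff.2 ⟨mem_powersetCard_univ.2
          (by rw [← Set.ncard_eq_toFinset_card', hB']), hB.2⟩, by simp⟩
      · rw [Set.ncard_empty] at hB'
        subst hB'
        rw [card_eq_zero.1 hA] at hA'
        exact ⟨∅, mem_sdiff.2 ⟨by simp, hA'⟩, by simp⟩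
  rw [h3, card_sdiff_add_card_eq_card hs, hc]

/-- Graham and Sloane: a large sparse family. -/
theorem exists_sparse (hn : 0 < n) (r : ℕ) :
    ∃ G : Finset (Finset (Fin n)), Sparse r G ∧ n.choose r ≤ n * G.card := by
  classical
  have : NeZero n := ⟨hn.ne'⟩
  obtain ⟨c, -, hc⟩ := exists_max_image (univ : Finset (Fin n))
    (fun c => ((powersetCard r (univ : Finset (Fin n))).filter fun A => ∑ x ∈ A, x = c).card)
    univ_nonempty
  refine ⟨(powersetCard r univ).filter fun A => ∑ x ∈ A, x = c, ⟨fun A hA =>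
    mem_powersetCard_univ.1 (mem_filter.1 hA).1, fun I x y hx hy h1 h2 => ?_⟩, ?_⟩
  · have h3 := (mem_filter.1 h1).2
    have h4 := (mem_filter.1 h2).2
    rw [sum_insert hx] at h3
    rw [sum_insert hy] at h4
    exact add_right_cancel (h3.trans h4.symm)
  · have h1 := card_eq_sum_card_fiberwise (s := powersetCard r (univ : Finset (Fin n)))
      (t := univ) (f := fun A => ∑ x ∈ A, x) fun _ _ => mem_univ _
    rw [card_powersetCard, card_univ, Fintype.card_fin] at h1
    rw [h1]
    refine (sum_le_card_nsmul _ _ _ hc).trans_eq ?_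
    rw [card_univ, Fintype.card_fin, smul_eq_mul]

theorem choose_sub_ge {g h : ℕ} {η : ℝ} (hη : η ≤ 1 / 4) (hh : (h : ℝ) ≤ η * g) (q : ℕ)
    (hq : 2 * q ≤ g) : (g.choose h : ℝ) * Real.exp (-(4 * η * q)) ≤ (g - q).choose h := by
  induction q with
  | zero => simp
  | succ q ih =>
    obtain ⟨m, hm⟩ : ∃ m, g - q = m + 1 := ⟨g - q - 1, by omega⟩
    have h1 := ih (by omega)
    rw [show g - (q + 1) = m by omega]
    rw [hm] at h1
    have h2 : (g : ℝ) ≤ 2 * (m + 1) := by exact_mod_cast (show g ≤ 2 * (m + 1) by omega)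
    have h0 : (0 : ℝ) < g := by exact_mod_cast (show 0 < g by omega)
    have hη0 : 0 ≤ η := by
      by_contra hc
      nlinarith [Nat.cast_nonneg (α := ℝ) h]
    have h3 : (h : ℝ) ≤ 2 * η * (m + 1) := by nlinarith
    have h4 : h ≤ m + 1 := by
      have : (h : ℝ) ≤ (m + 1 : ℕ) := by
        push_cast
        nlinarith [Nat.cast_nonneg (α := ℝ) m]
      exact_mod_cast this
    have h5 : (m.choose h : ℝ) * (m + 1) = (m + 1).choose h * (m + 1 - h) := by
      have := Nat.choose_mul_succ_eq m h
      have h6 : ((m + 1 - h : ℕ) : ℝ) = m + 1 - h := by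
        rw [Nat.cast_sub h4]
        push_cast
        ring
      rw [← h6]
      exact_mod_cast this
    have h6 : Real.exp (-(4 * η)) ≤ 1 - 2 * η := by
      have h7 := Real.add_one_le_exp (4 * η)
      rw [Real.exp_neg, inv_le_iff_one_le_mul₀ (Real.exp_pos _)]
      nlinarith
    have h7 : Real.exp (-(4 * η * ((q + 1 : ℕ) : ℝ))) =
        Real.exp (-(4 * η * q)) * Real.exp (-(4 * η)) := by
      rw [← Real.exp_add]
      push_cast
      ring_nf
    have h8 : (0 : ℝ) < m + 1 := by positivity
    have h9 : ((m + 1).choose h : ℝ) * (1 - 2 * η) ≤ m.choose h := by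
      refine le_of_mul_le_mul_right ?_ h8
      rw [h5, mul_assoc]
      exact mul_le_mul_of_nonneg_left (by nlinarith) (Nat.cast_nonneg _)
    rw [h7, ← mul_assoc]
    exact (mul_le_mul h1 h6 (Real.exp_pos _).le (Nat.cast_nonneg _)).trans h9

theorem bits_inj {a b : ℕ} (h : a.bits = b.bits) : a = b := by
  have key : ∀ a : ℕ, a.bits.foldr Nat.bit 0 = a := fun a => by
    induction a using Nat.binaryRec' with
    | zero => simp
    | bit b a ha ih => rw [Nat.bits_append_bit _ _ ha, List.foldr_cons, ih]
  rw [← key a, h, key]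

/-- The lower bound. -/
theorem lower (M : Machine) (x : List Bool) {n r T q : ℕ} {ε δ η : ℝ} (hr : r < n) (hε : 0 ≤ ε)
    (hη : η = n * (2 * ε + 1 / n.choose r)) (h4 : η ≤ 1 / 4) (hq : 2 * n * q ≤ n.choose r)
    (H : ∀ M₁ : Matroid (Fin n), M₁.E = Set.univ → M₁.eRank = r → ∀ N : ℕ,
      N = Nat.card {B : Set (Fin n) // M₁.IsBase B ∧ M₁.IsBase B} →
      (∀ ρ : Fin T → Bool, M.calls (oracle M₁ M₁) (M.first x) (List.ofFn ρ) ≤ q) ∧
      (1 - δ) * 2 ^ T ≤ Nat.card {ρ : Fin T → Bool // ∃ a : ℕ,
        (M.run (oracle M₁ M₁) (M.first x) (List.ofFn ρ)).stk 0 = a.bits ∧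
        (1 - ε) * N ≤ a ∧ (a : ℝ) ≤ (1 + ε) * N}) :
    (1 - δ) * Real.exp (-(4 * η * q)) ≤ δ := by
  classical
  have hn : 0 < n := by omega
  obtain ⟨G, hG, hG'⟩ := exists_sparse hn r
  have hC : 0 < n.choose r := Nat.choose_pos hr.le
  have hC' : (0 : ℝ) < n.choose r := by exact_mod_cast hC
  have hn' : (1 : ℝ) ≤ n := by exact_mod_cast hn
  have hG2 : (n.choose r : ℝ) ≤ n * G.card := by exact_mod_cast hG'
  have hGC : G.card ≤ n.choose r := by
    have := card_le_card (show G ⊆ powersetCard r univ from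
      fun A hA => mem_powersetCard_univ.2 (hG.1 A hA))
    rwa [card_powersetCard, card_univ, Fintype.card_fin] at this
  have hGC' : (G.card : ℝ) ≤ n.choose r := by exact_mod_cast hGC
  obtain ⟨h, a1, a2⟩ : ∃ h : ℕ, 2 * ε * n.choose r < h ∧ (h : ℝ) ≤ 2 * ε * n.choose r + 1 :=
    ⟨⌊2 * ε * n.choose r⌋₊ + 1, by exact_mod_cast Nat.lt_floor_add_one _, by
      push_cast
      exact add_le_add_left (Nat.floor_le (by positivity)) 1⟩
  have a3 : (h : ℝ) ≤ η * G.card := by
    have b1 : 2 * ε * n.choose r + 1 = (2 * ε + 1 / n.choose r) * n.choose r := by field_simp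
    rw [hη, mul_comm (n : ℝ), mul_assoc]
    exact a2.trans (b1.le.trans (mul_le_mul_of_nonneg_left hG2 (by positivity)))
  have a4 : 2 * q ≤ G.card := Nat.le_of_mul_le_mul_left
    (show n * (2 * q) ≤ n * G.card by nlinarith) hn
  have a5 : h < n.choose r := by
    have : (h : ℝ) < n.choose r := by nlinarith [Nat.cast_nonneg (α := ℝ) G.card]
    exact_mod_cast this
  have a6 : h ≤ G.card := by
    have : (h : ℝ) ≤ G.card := by nlinarith [Nat.cast_nonneg (α := ℝ) G.card]
    exact_mod_cast this
  have key := choose_sub_ge h4 a3 q a4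
  -- the coin strings with a correct output
  let good : (K : Finset (Finset (Fin n))) → (Fin T → Bool) → Prop := fun K ρ =>
    ∃ hK : Sparse r K, ∃ a : ℕ,
      (M.run (oracle (pav r K hK) (pav r K hK)) (M.first x) (List.ofFn ρ)).stk 0 = a.bits ∧
      (1 - ε) * (n.choose r - K.card) ≤ a ∧ (a : ℝ) ≤ (1 + ε) * (n.choose r - K.card)
  have b1 : ∀ K, K ⊆ G → K.card < n.choose r →
      (1 - δ) * 2 ^ T ≤ ((univ.filter (good K)).card : ℝ) := fun K hK hK' => by
    obtain ⟨c1, c2⟩ := pav_spec (hG.mono hK) hK'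
    refine (H _ (pav_E _) c1 _ rfl).2.trans_eq (congrArg _ (Nat.subtype_card _ fun ρ => ?_))
    have c3 : (Nat.card {B : Set (Fin n) // (pav r K (hG.mono hK)).IsBase B ∧
        (pav r K (hG.mono hK)).IsBase B} : ℝ) = n.choose r - K.card := by
      rw [← c2]
      push_cast
      ring
    rw [c3, mem_filter]
    exact ⟨fun h => h.2.2, fun h => ⟨mem_univ _, hG.mono hK, h⟩⟩
  have b2 : ∀ ρ, good ∅ ρ → (G.card - q).choose h ≤
      ((powersetCard h G).filter fun K => ¬ good K ρ).card := by
    rintro ρ ⟨h0, a, c1, c2, -⟩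
    obtain ⟨Q, c3, c4⟩ := exists_asked M (oracle (pav r ∅ h0) (pav r ∅ h0)) (List.ofFn ρ)
      (M.first x)
    have c5 := c3.trans ((H _ (pav_E _) (pav_spec h0 hC).1 _ rfl).1 ρ)
    let D : List Bool → Finset (Fin n) := fun w => {y | w.tail.getD y false = true}
    have c6 : G.card - q ≤ (G \ Q.image D).card :=
      le_trans (Nat.sub_le_sub_left (card_image_le.trans c5) _) (le_card_sdiff _ _)
    refine (Nat.choose_le_choose h c6).trans ?_
    rw [← card_powersetCard]
    refine card_le_card fun K hK => ?_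
    rw [mem_powersetCard] at hK
    refine mem_filter.2 ⟨mem_powersetCard.2 ⟨hK.1.trans sdiff_subset, hK.2⟩, ?_⟩
    rintro ⟨hK', a', d1, -, d2⟩
    rw [c4 _ fun w hw => ?_, c1] at d1
    · rw [← bits_inj d1, hK.2] at d2
      rw [card_empty, Nat.cast_zero, sub_zero] at c2
      nlinarith [Nat.cast_nonneg (α := ℝ) h]
    · have d3 : D w ∉ K := fun d => (mem_sdiff.1 (hK.1 d)).2 (mem_image_of_mem _ hw)
      refine exists_congr fun i => exists_congr fun S => and_congr_right fun e => ?_
      have d4 : ∀ j, @Set.toFinset _ {y : Fin n | S.getD y false = true} j = D w := fun j => by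
        ext y
        simp [D, e]
      rw [ite_self, ite_self, pav_indep, pav_indep, d4]
      simp [d3]
  have b3 : ∑ ρ ∈ univ.filter (good ∅), ((powersetCard h G).filter fun K => ¬ good K ρ).card ≤
      ∑ K ∈ powersetCard h G, (univ.filter fun ρ => ¬ good K ρ).card := by
    refine (sum_le_sum_of_subset (filter_subset _ _)).trans_eq ?_
    simp only [card_filter]
    exact sum_comm
  have b4 : ((univ.filter (good ∅)).card : ℝ) * (G.card - q).choose h ≤
      G.card.choose h * (δ * 2 ^ T) := by
    have c1 := card_nsmul_le_sum _ _ _ fun ρ (hρ : ρ ∈ univ.filter (good ∅)) =>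
      b2 ρ (mem_filter.1 hρ).2
    have c2 : ((∑ K ∈ powersetCard h G, (univ.filter fun ρ => ¬ good K ρ).card : ℕ) : ℝ) ≤
        (powersetCard h G).card • (δ * 2 ^ T) := by
      push_cast
      refine sum_le_card_nsmul _ _ _ fun K hK => ?_
      rw [mem_powersetCard] at hK
      have d1 := b1 K hK.1 (hK.2.trans_lt a5)
      have d2 := card_filter_add_card_filter_not (s := univ) (good K)
      rw [card_univ, Fintype.card_fun, Fintype.card_bool, Fintype.card_fin] at d2
      have d3 : ((univ.filter (good K)).card : ℝ) + (univ.filter fun ρ => ¬ good K ρ).card =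
        2 ^ T := by exact_mod_cast d2
      linarith
    rw [card_powersetCard, nsmul_eq_mul] at c2
    refine le_trans ?_ c2
    exact_mod_cast c1.trans b3
  have b5 := b1 ∅ (empty_subset _) hC
  have b6 : (0 : ℝ) < G.card.choose h := by exact_mod_cast Nat.choose_pos a6
  have b7 : (0 : ℝ) < 2 ^ T := by positivity
  refine le_of_mul_le_mul_right ?_ (mul_pos b6 b7)
  calc (1 - δ) * Real.exp (-(4 * η * q)) * (G.card.choose h * 2 ^ T)
      = (1 - δ) * 2 ^ T * (G.card.choose h * Real.exp (-(4 * η * q))) := by ring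
    _ ≤ (univ.filter (good ∅)).card * (G.card.choose h * Real.exp (-(4 * η * q))) :=
      mul_le_mul_of_nonneg_right b5 (by positivity)
    _ ≤ (univ.filter (good ∅)).card * (G.card - q).choose h :=
      mul_le_mul_of_nonneg_left key (Nat.cast_nonneg _)
    _ ≤ _ := b4.trans_eq (by ring)

end Vale.Agent.N317
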