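import Vale.Agent.N317.Lower
import Mathlib.Combinatorics.Matroid.Sum

/-!
Partitions into independent sets as common bases of two matroids.
-/

namespace Vale.Agent.N317

open Set Matroid

/-- Truncation. -/
noncomputable def trunc {α : Type} [Finite α] (M : Matroid α) (r : ℕ) : Matroid α :=
  (IndepMatroid.ofFinite (E := univ) finite_univ (fun I => M.Indep I ∧ I.ncard ≤ r)
    ⟨M.empty_indep, by simp⟩
    (fun I J hJ hIJ => ⟨hJ.1.subset hIJ, (ncard_le_ncard hIJ).trans hJ.2⟩)
    (fun I J hI hJ hIJ => by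
      obtain ⟨e, he, he'⟩ := hI.1.augment hJ.1 (by
        rw [← (toFinite I).cast_ncard_eq, ← (toFinite J).cast_ncard_eq]
        exact_mod_cast hIJ)
      refine ⟨e, he.1, he.2, he', ?_⟩
      rw [ncard_insert_of_notMem he.2]
      exact hIJ.trans_le hJ.2)
    (fun _ _ => subset_univ _)).matroid

theorem trunc_indep {α : Type} [Finite α] (M : Matroid α) (r : ℕ) (I : Set α) :
    (trunc M r).Indep I ↔ M.Indep I ∧ I.ncard ≤ r := Iff.rfl

variable {k n : ℕ}

/-- The sum of the matroids and of a free matroid, truncated. -/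
noncomputable def matA (M : Fin k → Matroid (Fin n)) : Matroid (Fin (k + 1) × Fin n) :=
  trunc (Matroid.sum' fun i : Fin (k + 1) => if h : (i : ℕ) < k then M ⟨i, h⟩ else freeOn univ) n

variable (k n) in
/-- The partition matroid; the last copy consists of loops. -/
noncomputable def matP : Matroid (Fin (k + 1) × Fin n) :=
  ((freeOn univ).comap Prod.snd) ↾ {p | (p.1 : ℕ) < k}

theorem matA_indep (M : Fin k → Matroid (Fin n)) (X : Set (Fin (k + 1) × Fin n)) :
    (matA M).Indep X ↔ (∀ i : Fin k, (M i).Indep (Prod.mk i.castSucc ⁻¹' X)) ∧ X.ncard ≤ n := by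
  rw [matA, trunc_indep, sum'_indep_iff]
  refine and_congr_left fun _ => ⟨fun h i => ?_, fun h i => ?_⟩
  · simpa using h i.castSucc
  · split_ifs with hi
    · exact h ⟨i, hi⟩
    · simp

theorem matP_indep (X : Set (Fin (k + 1) × Fin n)) :
    (matP k n).Indep X ↔ InjOn Prod.snd X ∧ ∀ p ∈ X, (p.1 : ℕ) < k := by
  simp [matP, subset_def]

theorem ncard_row (f : Fin n → Fin (k + 1)) : {p : Fin (k + 1) × Fin n | p.1 = f p.2}.ncard = n := by
  have h : {p : Fin (k + 1) × Fin n | p.1 = f p.2} = (fun e => (f e, e)) '' univ := by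
    ext ⟨i, e⟩
    simp [eq_comm]
  rw [h, ncard_image_of_injective _ fun _ _ h => (Prod.ext_iff.1 h).2, ncard_univ, Nat.card_fin]

theorem matA_rank (M : Fin k → Matroid (Fin n)) : (matA M).eRank = n ∧
    ∀ B, (matA M).IsBase B ↔ (matA M).Indep B ∧ B.ncard = n := by
  refine rank_of_bound (fun I hI => ((matA_indep M I).1 hI).2) (I₀ := {p | p.1 = Fin.last k})
    ((matA_indep M _).2 ⟨fun i => ?_, (ncard_row fun _ => Fin.last k).le⟩)
    (ncard_row fun _ => Fin.last k)
  convert (M i).empty_indep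
  ext e
  simp [Fin.castSucc_ne_last]

theorem matP_rank (hk : 0 < k) : (matP k n).eRank = n ∧
    ∀ B, (matP k n).IsBase B ↔ (matP k n).Indep B ∧ B.ncard = n := by
  refine rank_of_bound (fun I hI => ?_) (I₀ := {p | p.1 = 0})
    ((matP_indep _).2 ⟨fun p hp q hq h => Prod.ext (hp.trans hq.symm) h, fun p hp => ?_⟩)
    (ncard_row fun _ => 0)
  · rw [← ((matP_indep I).1 hI).1.ncard_image]
    exact (ncard_le_card _).trans_eq (Nat.card_fin n)
  · rw [show p.1 = 0 from hp]
    exact hk

theorem card_common (hk : 0 < k) (M : Fin k → Matroid (Fin n)) :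
    Nat.card {X // (matA M).IsBase X ∧ (matP k n).IsBase X} =
      Nat.card {c : Fin n → Fin k // ∀ i, (M i).Indep (c ⁻¹' {i})} := by
  have h1 : ∀ (c : Fin n → Fin k) (i : Fin k), Prod.mk i.castSucc ⁻¹'
      {p : Fin (k + 1) × Fin n | p.1 = (c p.2).castSucc} = c ⁻¹' {i} := fun c i => by
    ext e
    simp [eq_comm]
  refine (Nat.card_eq_of_bijective
    (fun c : {c : Fin n → Fin k // ∀ i, (M i).Indep (c ⁻¹' {i})} =>
      (⟨{p | p.1 = (c.1 p.2).castSucc}, ?_, ?_⟩ :
        {X // (matA M).IsBase X ∧ (matP k n).IsBase X})) ⟨?_, ?_⟩).symm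
  · have h2 := ncard_row fun e => (c.1 e).castSucc
    exact ((matA_rank M).2 _).2 ⟨(matA_indep M _).2 ⟨fun i => (h1 c.1 i).symm ▸ c.2 i, h2.le⟩, h2⟩
  · refine ((matP_rank hk).2 _).2 ⟨(matP_indep _).2 ⟨fun p hp q hq h => Prod.ext ?_ h,
      fun p hp => ?_⟩, ncard_row fun e => (c.1 e).castSucc⟩
    · rw [show p.1 = _ from hp, show q.1 = _ from hq, h]
    · rw [show p.1 = _ from hp]
      exact (c.1 p.2).2
  · intro c c' h
    refine Subtype.ext (funext fun e => ?_)
    have h2 := Set.ext_iff.1 (Subtype.ext_iff.1 h) ((c.1 e).castSucc, e)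
    simpa using h2
  · rintro ⟨X, hA, hP⟩
    obtain ⟨h2, h3⟩ := ((matP_rank hk).2 _).1 hP
    obtain ⟨h4, h5⟩ := (matP_indep _).1 h2
    have h6 : Prod.snd '' X = univ := eq_of_subset_of_ncard_le (subset_univ _) (by
      rw [h4.ncard_image, h3, ncard_univ, Nat.card_fin])
    have h7 : ∀ e, ∃ i : Fin k, (i.castSucc, e) ∈ X := fun e => by
      obtain ⟨p, hp, rfl⟩ : e ∈ Prod.snd '' X := h6 ▸ mem_univ e
      exact ⟨⟨p.1, h5 p hp⟩, hp⟩
    choose c hc using h7
    have h8 : {p : Fin (k + 1) × Fin n | p.1 = (c p.2).castSucc} = X := by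
      ext p
      exact ⟨fun h => by
        rw [show p = ((c p.2).castSucc, p.2) from Prod.ext h rfl]
        exact hc _, fun h => (Prod.ext_iff.1 (h4 h (hc p.2) rfl)).1⟩
    refine ⟨⟨c, fun i => ?_⟩, Subtype.ext h8⟩
    rw [← h1, h8]
    exact ((matA_indep M _).1 hA.indep).1 i

/-- The first matroid of the reduction. -/
noncomputable def redA (M : Fin k → Matroid (Fin n)) : Matroid (Fin ((k + 1) * n)) :=
  (matA M).mapEquiv finProdFinEquiv

variable (k n) in
/-- The second matroid of the reduction. -/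
noncomputable def redP : Matroid (Fin ((k + 1) * n)) := (matP k n).mapEquiv finProdFinEquiv

theorem red_rank (hk : 0 < k) (M : Fin k → Matroid (Fin n)) :
    (redA M).eRank = (redP k n).eRank := by
  rw [redA, redP, mapEquiv_eq_map, mapEquiv_eq_map, eRank_map, eRank_map, (matA_rank M).1,
    (matP_rank hk).1]

theorem red_card (hk : 0 < k) (M : Fin k → Matroid (Fin n)) :
    Nat.card {B // (redA M).IsBase B ∧ (redP k n).IsBase B} =
      Nat.card {c : Fin n → Fin k // ∀ i, (M i).Indep (c ⁻¹' {i})} := by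
  rw [← card_common hk]
  refine Nat.card_congr ((Equiv.Set.congr finProdFinEquiv.symm).subtypeEquiv fun B => ?_)
  rw [redA, redP, mapEquiv_isBase_iff, mapEquiv_isBase_iff]
  rfl

/-- The positions below `N` of the ones of a word. -/
def ones (N : ℕ) (S : List Bool) : List ℕ :=
  (List.range S.length).filter fun p => S.getD p false && decide (p < N)

theorem mem_ones {N p : ℕ} {S : List Bool} : p ∈ ones N S ↔ S.getD p false = true ∧ p < N := by
  simp only [ones, List.mem_filter, List.mem_range, Bool.and_eq_true, decide_eq_true_eq,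
    and_iff_right_iff_imp]
  rintro ⟨h, -⟩
  by_contra hc
  rw [List.getD_eq_default _ _ (not_lt.1 hc)] at h
  exact Bool.false_ne_true h

theorem length_ones (N : ℕ) (S : List Bool) :
    (ones N S).length = {x : Fin N | S.getD x false = true}.ncard := by
  rw [← List.toFinset_card_of_nodup (l := ones N S) ((List.nodup_range).filter _),
    ← ncard_coe_finset, ← ncard_image_of_injective _ Fin.val_injective]
  congr 1
  ext p
  rw [Finset.mem_coe, List.mem_toFinset]
  refine mem_ones.trans ⟨fun h => ⟨⟨p, h.2⟩, h.1, rfl⟩, ?_⟩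
  rintro ⟨x, hx, rfl⟩
  exact ⟨hx, x.2⟩

theorem mem_symm {S : List Bool} {p : Fin (k + 1) × Fin n} :
    p ∈ finProdFinEquiv.symm '' {x : Fin ((k + 1) * n) | S.getD x false = true} ↔
      S.getD (p.2 + n * p.1) false = true := by
  rw [Equiv.image_symm_eq_preimage]
  rfl

theorem redA_indep (M : Fin k → Matroid (Fin n)) (S : List Bool) :
    (redA M).Indep {x | S.getD x false = true} ↔
      (∀ i : Fin k, (M i).Indep {x | (S.drop (n * i)).getD x false = true}) ∧
        (ones ((k + 1) * n) S).length ≤ n := by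
  rw [redA, mapEquiv_indep_iff, matA_indep, ncard_image_of_injective _ (Equiv.injective _),
    length_ones]
  refine and_congr_left fun _ => forall_congr' fun i => iff_of_eq (congrArg _ ?_)
  ext e
  rw [mem_preimage, mem_symm, mem_ofPred_eq, List.getD_eq_getElem?_getD, List.getD_eq_getElem?_getD,
    List.getElem?_drop, add_comm]
  rfl

theorem redP_indep (S : List Bool) :
    (redP k n).Indep {x | S.getD x false = true} ↔
      ∀ p ∈ ones ((k + 1) * n) S, p < n * k ∧ ∀ q ∈ ones ((k + 1) * n) S, p % n = q % n → p = q := by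
  rw [redP, mapEquiv_indep_iff, matP_indep]
  have h1 : ∀ p : Fin (k + 1) × Fin n, ((p.2 : ℕ) + n * p.1) % n = p.2 := fun p => by
    rw [Nat.add_mul_mod_self_left, Nat.mod_eq_of_lt p.2.2]
  have h2 : ∀ p : Fin (k + 1) × Fin n, (p.2 : ℕ) + n * p.1 < n * k ↔ (p.1 : ℕ) < k := fun p => by
    have := p.2.2
    constructor
    · intro h
      by_contra hc
      have := Nat.mul_le_mul_left n (not_lt.1 hc)
      omega
    · intro h
      have := Nat.mul_le_mul_left n (Nat.succ_le_of_lt h)
      rw [Nat.mul_succ] at this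
      omega
  have h3 : ∀ p ∈ ones ((k + 1) * n) S, ∃ x : Fin (k + 1) × Fin n, p = x.2 + n * x.1 ∧
      S.getD (x.2 + n * x.1) false = true := fun p hp => by
    obtain ⟨h4, h5⟩ := mem_ones.1 hp
    obtain ⟨x, hx⟩ := finProdFinEquiv.surjective (⟨p, h5⟩ : Fin ((k + 1) * n))
    have h6 : (x.2 : ℕ) + n * x.1 = p := congrArg Fin.val hx
    exact ⟨x, h6.symm, h6.symm ▸ h4⟩
  have h4 : ∀ x : Fin (k + 1) × Fin n, S.getD (x.2 + n * x.1) false = true →
      (x.2 : ℕ) + n * x.1 ∈ ones ((k + 1) * n) S := fun x hx =>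
    mem_ones.2 ⟨hx, (finProdFinEquiv x).2⟩
  constructor
  · rintro ⟨h5, h6⟩ p hp
    obtain ⟨x, rfl, hx⟩ := h3 p hp
    refine ⟨(h2 x).2 (h6 x (mem_symm.2 hx)), fun q hq h => ?_⟩
    obtain ⟨y, rfl, hy⟩ := h3 q hq
    rw [h1, h1] at h
    rw [h5 (mem_symm.2 hx) (mem_symm.2 hy) (Fin.ext h)]
  · intro h
    refine ⟨fun x hx y hy e => finProdFinEquiv.injective (Fin.ext ?_), fun x hx =>
      (h2 x).1 (h _ (h4 x (mem_symm.1 hx))).1⟩
    exact (h _ (h4 x (mem_symm.1 hx))).2 _ (h4 y (mem_symm.1 hy)) ((h1 x).trans ((congrArg Fin.val e).trans (h1 y).symm))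

end Vale.Agent.N317
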