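import Vale.Agent.N317.Red

/-!
Not a hand-in (withdrawn from the results folder): partitions into independent sets, and a lower
bound for the number of oracle calls.
-/

namespace Vale.Agent.N317.Old

open Vale.Agent.P317Z Vale.Agent.N317

/-- (1) An FPRAS (probabilistic oracle Turing machine) for the number of ordered partitions of the
ground set into independent sets of `k` given matroids. (2) A lower bound for the number of oracle
calls of every machine that estimates the number of common bases, already for `M₁ = M₂`. -/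
theorem partitions_and_lower_bound :
    (∃ (M : Machine) (d : ℕ), ∀ (κ n : ℕ) (Ms : Fin κ → Matroid (Fin n)),
      0 < κ → (∀ i, (Ms i).E = Set.univ) →
      ∀ ε γ : ℚ, 0 < ε → ε < 1 → 0 < γ → γ < 1 → ∀ (N T : ℕ) (m : ℝ) (x : List Bool),
        N = Nat.card {c : Fin n → Fin κ // ∀ i, (Ms i).Indep (c ⁻¹' {i})} →
        m = n + κ + 1 / (ε : ℝ) + Real.logb 2 (1 / (γ : ℝ)) + 2 →
        x = pair κ.bits (code n ε γ) →
        (m + Real.logb 2 (ε.num * γ.num)) ^ d ≤ T →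
        (∀ ρ : Fin T → Bool, (M.run (oracles Ms) (M.first x) (List.ofFn ρ)).l = none ∧
          (M.calls (oracles Ms) (M.first x) (List.ofFn ρ) : ℝ) ≤ m ^ d) ∧
        (1 - γ : ℝ) * 2 ^ T ≤ Nat.card {ρ : Fin T → Bool // ∃ a : ℕ,
          (M.run (oracles Ms) (M.first x) (List.ofFn ρ)).stk 0 = a.bits ∧
          (1 - ε : ℝ) * N ≤ a ∧ (a : ℝ) ≤ (1 + ε) * N}) ∧
    (∀ (M : Machine) (x : List Bool) (n r T q : ℕ) (ε γ η : ℝ), r < n → 0 ≤ ε →
      η = n * (2 * ε + 1 / n.choose r) → η ≤ 1 / 4 → 2 * n * q ≤ n.choose r →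
      (∀ M₁ : Matroid (Fin n), M₁.E = Set.univ → M₁.eRank = r → ∀ N : ℕ,
        N = Nat.card {B : Set (Fin n) // M₁.IsBase B} →
        (∀ ρ : Fin T → Bool, M.calls (oracle M₁ M₁) (M.first x) (List.ofFn ρ) ≤ q) ∧
        (1 - γ) * 2 ^ T ≤ Nat.card {ρ : Fin T → Bool // ∃ a : ℕ,
          (M.run (oracle M₁ M₁) (M.first x) (List.ofFn ρ)).stk 0 = a.bits ∧
          (1 - ε) * N ≤ a ∧ (a : ℝ) ≤ (1 + ε) * N}) →
      (1 - γ) * Real.exp (-(4 * η * q)) ≤ γ) := by
  refine ⟨?_, fun M x n r T q ε γ η hr hε hη h4 hq H => lower M x (T := T) hr hε hη h4 hq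
    fun M₁ h1 h2 N hN => H M₁ h1 h2 N (by simpa only [and_self] using hN)⟩
  obtain ⟨M, c, H⟩ := exists_fprasK
  refine ⟨M, 1943 * (c + 1), ?_⟩
  intro κ n Ms hk _ ε γ h1 h2 h3 h4 N T m x hN hm hx hT
  obtain ⟨out, h5, h6⟩ := H κ n Ms hk (inp n ε γ) rfl N hN
  obtain ⟨b1, b2⟩ := boundsK h1 h2 h3 h4 c hm
  rw [hx, code_eq, pair_eq]
  exact finish h1 h3 h5 h6 b1 (b2.trans hT)

end Vale.Agent.N317.Old
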