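import Vale.Agent.N317.Defs
import Vale.Agent.N317.Mat
import Vale.Agent.P317Z.Fin

/-!
The reduction on the level of machines: every question to one of the two matroids of the
reduction is answered with the help of `k` questions to the given matroids.
-/

namespace Vale.Agent.N317

open Vale.Agent.Lib.PolyTime Vale.Agent.P317 Vale.Agent.P317Z

/-- States: `k` and `n`, the next index and the conjunction of the answers, the old state. -/
abbrev W : Type := (ℕ × ℕ) × (ℕ × Bool) × Raw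

/-- A state together with a coin and an answer. -/
structure ExtW where
  b : Bool
  a : Bool
  s : W

instance : Enc ExtW := ⟨fun i => i.b :: i.a :: enc i.s⟩

/-- The `j`-th question which is asked for the old question `u`. -/
def sub (n j : ℕ) (u : Word) : Word := pr j.bits (u.tail.drop (n * j))

/-- The answer to the old question `u`. -/
def ans (k n : ℕ) (u : Word) (acc : Bool) : Bool :=
  bif hd u then (ones ((k + 1) * n) u.tail).all fun p => decide (p < n * k) &&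
    (ones ((k + 1) * n) u.tail).all fun q => !decide (p % n = q % n) || decide (p = q)
  else acc && decide ((ones ((k + 1) * n) u.tail).length ≤ n)

/-- The question. -/
def qW (Q : Word → Word) (s : W) : Raw :=
  if (Q s.2.2.w).length = 0 then ⟨[]⟩ else ⟨sub s.1.2 s.2.1.1 (Q s.2.2.w)⟩

/-- The next state. -/
def uW (Q U : Word → Word) (i : ExtW) : W :=
  if i.s.2.1.1 < i.s.1.1 then (i.s.1, (i.s.2.1.1 + 1, i.s.2.1.2 && i.a), i.s.2.2)
  else (i.s.1, (0, true), ⟨U (i.b :: ans i.s.1.1 i.s.1.2 (Q i.s.2.2.w) i.s.2.1.2 :: i.s.2.2.w)⟩)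

section PT

variable {α β : Type} [Enc α] [Enc β]

theorem pt_app {F : Word → Word} (hF : FP ∅ F) {f : α → Raw} (hf : PT ∅ f) :
    PT ∅ fun a => Raw.mk (F (f a).w) := by
  obtain ⟨G, h1, h2⟩ := hf
  exact ⟨_, hF.comp h1, fun a => by rw [h2]; rfl⟩

theorem pt_raw {f : α → β} (hf : PT ∅ f) : PT ∅ fun a => Raw.mk (enc (f a)) := hf

theorem pt_cons {b : α → Bool} {f : α → Raw} (hb : PT ∅ b) (hf : PT ∅ f) :
    PT ∅ fun a => Raw.mk (b a :: (f a).w) := by
  obtain ⟨G, h1, h2⟩ := hf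
  obtain ⟨B, h3, h4⟩ := hb
  exact ⟨_, FP.append h3 h1, fun a => by rw [h2, h4]; rfl⟩

theorem pt_ones {N : α → ℕ} {S : α → List Bool} (hN : PT ∅ N) (hS : PT ∅ S) :
    PT ∅ fun a => ones (N a) (S a) :=
  PT.filter (f := fun a p => (S a).getD p false && decide (p < N a))
    (PT.range (PT.length hS) (PBd.length hS))
    (PT.and (PT.getD (hS.comp PT.fst') PT.snd' (PT.const false)) (PT.lt PT.snd' (hN.comp PT.fst')))

theorem pt_ans {k n : α → ℕ} {u : α → Raw} {acc : α → Bool} (hk : PT ∅ k) (hn : PT ∅ n)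
    (hu : PT ∅ u) (ha : PT ∅ acc) : PT ∅ fun a => ans (k a) (n a) (u a).w (acc a) := by
  have h1 : PT ∅ fun a => ones ((k a + 1) * n a) (u a).w.tail :=
    pt_ones (PT.mul (PT.add hk (PT.const 1)) hn) (T.PT.listOfRaw hu).tail
  have h2 : PT ∅ fun x : (α × ℕ) × ℕ => n x.1.1 := hn.comp PT.fst'.fst
  exact PT.cond (T.PT.rawHd hu) (PT.all h1 (PT.and
    (PT.lt PT.snd' ((PT.mul hn hk).comp PT.fst'))
    (PT.all (f := fun (x : α × ℕ) q => !decide (x.2 % n x.1 = q % n x.1) || decide (x.2 = q))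
      (h1.comp PT.fst') (PT.or (PT.not (PT.eqNat (PT.mod PT.fst'.snd h2) (PT.mod PT.snd' h2)))
        (PT.eqNat PT.fst'.snd PT.snd'))))) (PT.and ha (PT.le (PT.length h1) hn))

theorem pt_qW {Q : Word → Word} (hQ : FP ∅ Q) : PT ∅ (qW Q) := by
  have h1 : PT ∅ fun s : W => Raw.mk (Q s.2.2.w) := pt_app hQ PT.snd'.snd
  exact PT.ite (PT.eqNat (PT.rawLength h1) (PT.const 0)) (PT.const _)
    (pt_raw (PT.snd'.fst.fst.pair
      (PT.rawDrop (pt_app FP.tail h1) (PT.mul PT.fst'.snd PT.snd'.fst.fst))))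

theorem pt_uW {Q U : Word → Word} (hQ : FP ∅ Q) (hU : FP ∅ U) : PT ∅ (uW Q U) := by
  have hs : PT ∅ ExtW.s := ⟨_, FP.tail.comp FP.tail, fun _ => rfl⟩
  have hb : PT ∅ ExtW.b := T.PT.rawHd (f := fun i : ExtW => Raw.mk (enc i)) ⟨_, FP.id, fun _ => rfl⟩
  have ha : PT ∅ ExtW.a :=
    T.PT.rawHd (f := fun i : ExtW => Raw.mk (enc i).tail) ⟨_, FP.tail, fun _ => rfl⟩
  exact PT.ite (PT.lt hs.snd.fst.fst hs.fst.fst)
    (hs.fst.pair (((PT.add hs.snd.fst.fst (PT.const 1)).pair (PT.and hs.snd.fst.snd ha)).pair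
      hs.snd.snd))
    (hs.fst.pair ((PT.const _).pair (pt_app hU (pt_cons hb (pt_cons
      (pt_ans hs.fst.fst hs.fst.snd (pt_app hQ hs.snd.snd) hs.snd.fst.snd) hs.snd.snd)))))

end PT

theorem length_W {k n j : ℕ} (hj : j ≤ k) (acc : Bool) (w : Word) :
    (enc (((k, n), (j, acc), ⟨w⟩) : W)).length ≤ w.length + 8 * k.size + 2 * n.size + 8 := by
  change esize _ ≤ _
  have := Nat.size_le_size hj
  simp only [esize_pair, esize_nat, esize_bool, esize_raw]
  omega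

open Classical in
theorem val_red {O O' : Set Word} {Q U Out Q' U' Out' : Word → Word} {k n : ℕ}
    (hQ : ∀ s, Q' (enc s) = enc (qW Q s)) (hU : ∀ i, U' (enc i) = enc (uW Q U i))
    (hO : ∀ s : W, Out' (enc s) = Out s.2.2.w)
    (H : ∀ u, u ≠ [] → ∀ acc : Bool, (acc = true ↔ ∀ j < k, sub n j u ∈ O') →
      (u ∈ O ↔ ans k n u acc = true))
    {p : Word → Prop} {B K : ℕ} {w : Word} {r : ℝ} (h : Val O Q U Out p B K w r) :
    Val O' Q' U' Out' p (B + 8 * k.size + 2 * n.size + 8) (K * (k + 1))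
      (enc (((k, n), (0, true), ⟨w⟩) : W)) r := by
  induction h with
  | @stop K w h1 h2 =>
    have h3 := Val.stop (O := O') (Q := Q') (U := U') (Out := Out') (p := p) (K := K * (k + 1))
      (B := B + 8 * k.size + 2 * n.size + 8) (w := enc (((k, n), (0, true), ⟨w⟩) : W))
      (by rw [hQ, qW, if_pos (by simp [h1])]; rfl)
      ((length_W (Nat.zero_le _) _ _).trans (by omega))
    rwa [hO] at h3
  | @step K w r r' a h1 h2 h3 _ _ ih ih' =>
    have h4 : ∀ j acc, Q' (enc (((k, n), (j, acc), ⟨w⟩) : W)) = sub n j (Q w) := fun j acc => by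
      rw [hQ, qW, if_neg (by simpa using h1)]
      rfl
    have h5 : ∀ j, sub n j (Q w) ≠ [] := fun j e => by
      have := congrArg List.length e
      simp [sub] at this
    have key : ∀ t j (acc : Bool), j + t = k → (acc = true ↔ ∀ i < j, sub n i (Q w) ∈ O') →
        Val O' Q' U' Out' p (B + 8 * k.size + 2 * n.size + 8) (K * (k + 1) + t + 1)
          (enc (((k, n), (j, acc), ⟨w⟩) : W)) ((r + r') / 2) := by
      intro t
      induction t with
      | zero =>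
        intro j acc hj ha
        rw [add_zero] at hj
        subst hj
        have h6 : ans j n (Q w) acc = a := Bool.eq_iff_iff.2 ((H _ h1 acc ha).symm.trans h2.symm)
        have h7 : ∀ b a', U' (b :: a' :: enc (((j, n), (j, acc), ⟨w⟩) : W)) =
            enc (((j, n), (0, true), ⟨U (b :: a :: w)⟩) : W) := fun b a' =>
          (hU ⟨b, a', _⟩).trans (by rw [uW, if_neg (lt_irrefl _), ← h6])
        refine Val.step (decide (sub n j (Q w) ∈ O')) ?_ ?_
          ((length_W le_rfl _ _).trans (by omega)) ((h7 _ _).symm ▸ ih) ((h7 _ _).symm ▸ ih')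
        · rw [h4]
          exact h5 _
        · rw [h4]
          exact decide_eq_true_iff
      | succ t iht =>
        intro j acc hj ha
        have h6 := iht (j + 1) (acc && decide (sub n j (Q w) ∈ O')) (by omega) (by
          rw [Bool.and_eq_true, ha, decide_eq_true_iff, Nat.forall_lt_succ_right])
        have h7 : ∀ b a', U' (b :: a' :: enc (((k, n), (j, acc), ⟨w⟩) : W)) =
            enc (((k, n), (j + 1, acc && a'), ⟨w⟩) : W) := fun b a' =>
          (hU ⟨b, a', _⟩).trans (by rw [uW, if_pos (show j < k by omega)])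
        rw [← add_self_div_two ((r + r') / 2)]
        refine Val.step (decide (sub n j (Q w) ∈ O')) ?_ ?_
          ((length_W (by omega) _ _).trans (by omega)) ((h7 _ _).symm ▸ h6) ((h7 _ _).symm ▸ h6)
        · rw [h4]
          exact h5 _
        · rw [h4]
          exact decide_eq_true_iff
    rw [show (K + 1) * (k + 1) = K * (k + 1) + k + 1 by ring]
    exact key k 0 true (zero_add _) (by simp)

theorem sub_mem {k n : ℕ} (M : Fin k → Matroid (Fin n)) (i : Fin k) (u : Word) :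
    sub n i u ∈ oracles M ↔ (M i).Indep {x | (u.tail.drop (n * i)).getD x false = true} := by
  refine ⟨?_, fun h => ⟨i, _, (P317Z.pair_eq _ _).symm, h⟩⟩
  rintro ⟨j, S, h1, h2⟩
  rw [P317Z.pair_eq] at h1
  obtain ⟨h3, h4⟩ := pr_inj h1
  rwa [Fin.ext (bits_inj h3), ← Fin.ext (bits_inj h3), h4, Fin.ext (bits_inj h3)]

theorem mem_red {k n : ℕ} (M : Fin k → Matroid (Fin n)) (u : Word) (hu : u ≠ []) (acc : Bool)
    (ha : acc = true ↔ ∀ j < k, sub n j u ∈ oracles M) :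
    u ∈ oracle (redA M) (redP k n) ↔ ans k n u acc = true := by
  obtain ⟨i, S, rfl⟩ := List.exists_cons_of_ne_nil hu
  have h1 : i :: S ∈ oracle (redA M) (redP k n) ↔
      (if i then redP k n else redA M).Indep {x | S.getD x false = true} :=
    ⟨fun ⟨_, _, h, h'⟩ => by
      obtain ⟨rfl, rfl⟩ := List.cons.inj h
      exact h', fun h => ⟨i, S, rfl, h⟩⟩
  rw [h1]
  cases i
  · rw [if_neg Bool.false_ne_true, redA_indep]
    change _ ↔ (acc && decide ((ones ((k + 1) * n) S).length ≤ n)) = true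
    rw [Bool.and_eq_true, ha, decide_eq_true_iff]
    refine and_congr_left fun _ => ⟨fun h j hj => ?_, fun h j => ?_⟩
    · exact (sub_mem M ⟨j, hj⟩ (false :: S)).2 (h ⟨j, hj⟩)
    · exact (sub_mem M j (false :: S)).1 (h j j.2)
  · rw [if_pos rfl, redP_indep]
    simp only [ans, hd, List.headD_cons, cond_true, List.tail_cons, Bool.and_eq_true,
      decide_eq_true_eq, List.all_eq_true, Bool.or_eq_true, Bool.not_eq_true', decide_eq_false_iff_not,
      imp_iff_not_or]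

/-- The input of the reduction. -/
def big (k : ℕ) (x : Inp) : Inp := ((k + 1) * x.1, x.2)

theorem exists_fprasK : ∃ (M : Machine) (c : ℕ), ∀ (k n : ℕ) (Ms : Fin k → Matroid (Fin n)),
    0 < k → ∀ x : Inp, x.1 = n → ∀ N : ℕ,
      N = Nat.card {c : Fin n → Fin k // ∀ i, (Ms i).Indep (c ⁻¹' {i})} →
      ∃ out : List Bool → ℕ,
      (1 - (1 / 2) ^ lP x ≤ frq (tP (big k x)) fun ρ => |(out ρ : ℝ) - N| ≤ N / eP x) ∧
      ∀ (p : Word → Prop) (P : M.Cfg → Prop), (∀ d : M.Cfg, d.l = none → (P d ↔ p (d.stk 0))) →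
        M.Res (oracles Ms) P (M.first (enc (k, x))) (4 * tP (big k x) * (k + 1))
          ((2 * tP (big k x) + 2) * (k + 1) * pb c (3 * esize (big k x) + 9 * tP (big k x) + 2 +
            8 * k.size + 2 * n.size + 8))
          (frq (tP (big k x)) fun ρ => p (out ρ).bits) := by
  obtain ⟨G, h1, hG⟩ := pt_nx
  obtain ⟨U, h2, hU⟩ := pt_up
  have hQ := h1.case3 FP.nil FP.nil (FP.tail.comp h1)
  obtain ⟨Q', a1, hQ'⟩ := pt_qW hQ
  obtain ⟨U', a2, hU'⟩ := pt_uW hQ h2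
  obtain ⟨O', a3, hO'⟩ : PT ∅ fun s : W => Raw.mk (G s.2.2.w).tail :=
    pt_app (FP.tail.comp h1) PT.snd'.snd
  obtain ⟨I, h3, hI⟩ : PT ∅ fun y : ℕ × Inp =>
      (((y.1, y.2.1), (0, true), ⟨enc ((big y.1 y.2, [], []) : St)⟩) : W) :=
    (PT.fst'.pair PT.snd'.fst).pair ((PT.const _).pair (pt_raw
      (((PT.mul (PT.add PT.fst' (PT.const 1)) PT.snd'.fst).pair PT.snd'.snd).pair (PT.const _))))
  obtain ⟨M, c, H⟩ := exists_machine h3 a1 a2 a3
  refine ⟨M, c, fun k n Ms hk x hx N hN => ?_⟩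
  subst hx
  obtain ⟨out, h4, h5⟩ := algo_spec (redA Ms) (redP k x.1) (red_rank hk Ms)
    (Nat.succ_pos (x.2.2.1 / x.2.1)) (lP x)
  rw [T.numCommon, red_card hk, ← hN] at h5
  refine ⟨out, h5, fun p P hP => ?_⟩
  have h6 := val_red hQ' hU' hO' (mem_red Ms)
    (val_coin (redA Ms) (redP k x.1) hG hU (x := big k x) rfl h4 p (tP (big k x)) [] (zero_add _))
  rw [← hI (k, x)] at h6
  refine (H _ p P hP (enc (k, x)) _ _ _ ?_ h6).mono (le_of_eq (by ring))
    (Nat.mul_le_mul_right _ (by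
      generalize tP (big k x) = t
      nlinarith))
  change esize (k, x) ≤ _
  obtain ⟨n, x⟩ := x
  simp only [big, esize_pair, esize_nat]
  omega

theorem big_inp (k n : ℕ) (ε δ : ℚ) : big k (inp n ε δ) = inp ((k + 1) * n) ε δ := rfl

theorem arith {μ y z t B s u : ℝ} (c : ℕ) (_e3 : 3 ≤ μ) (e4 : μ ≤ z) (e5 : 27 * z ≤ y)
    (e6 : z * μ ≤ y) (f1 : 0 ≤ t) (f2 : 0 ≤ B) (e1 : (2 * t + 2) * (B + 2) ≤ z) (h0 : 0 ≤ s)
    (h1 : s ≤ μ) (h2 : 0 ≤ u) (h3 : u ≤ 8 * μ) :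
    (2 * t + 2) * s * (B + u + 8 + 2) ^ c ≤ y * y ^ c := by
  have f3 := mul_nonneg f1 f2
  have f4 : 2 * t + 2 ≤ z := by nlinarith
  have f5 : B + u + 8 + 2 ≤ y := by nlinarith
  have f6 : 0 ≤ z := by linarith
  have f7 : 0 ≤ y := by linarith
  exact mul_le_mul (le_trans (mul_le_mul f4 h1 h0 f6) e6)
    (pow_le_pow_left₀ (by positivity) f5 c) (by positivity) f7

theorem pow_facts {μ : ℝ} (e3 : 3 ≤ μ) :
    μ ≤ μ ^ 1940 ∧ 27 * μ ^ 1940 ≤ μ ^ 1943 ∧ μ ^ 1940 * μ ≤ μ ^ 1943 := by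
  have h : 1 ≤ μ := by linarith
  refine ⟨le_self_pow₀ h (by norm_num), ?_, ?_⟩
  · rw [show 1943 = 3 + 1940 from rfl, pow_add]
    exact mul_le_mul_of_nonneg_right
      ((by norm_num : (27 : ℝ) = 3 ^ 3).trans_le (pow_le_pow_left₀ (by norm_num) e3 3))
      (pow_nonneg (zero_le_one.trans h) _)
  · rw [← pow_succ]
    exact pow_le_pow_right₀ h (by norm_num)

theorem boundsK {k n : ℕ} {ε δ : ℚ} (h1 : 0 < ε) (h2 : ε < 1) (h3 : 0 < δ) (h4 : δ < 1) (c : ℕ)
    {m : ℝ} (hm : m = n + k + 1 / (ε : ℝ) + Real.logb 2 (1 / (δ : ℝ)) + 2) :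
    ((4 * tP (big k (inp n ε δ)) * (k + 1) : ℕ) : ℝ) ≤ m ^ (1943 * (c + 1)) ∧
    (((2 * tP (big k (inp n ε δ)) + 2) * (k + 1) * pb c (3 * esize (big k (inp n ε δ)) +
      9 * tP (big k (inp n ε δ)) + 2 + 8 * k.size + 2 * n.size + 8) : ℕ) : ℝ) ≤
      (m + Real.logb 2 (ε.num * δ.num)) ^ (1943 * (c + 1)) := by
  have a1 := one_lt_inv h1 h2
  have a2 : 0 < Real.logb 2 (1 / (δ : ℝ)) := Real.logb_pos one_lt_two (one_lt_inv h3 h4)
  have a3 : (1 : ℝ) ≤ ε.num := by exact_mod_cast Rat.num_pos.2 h1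
  have a4 : (1 : ℝ) ≤ δ.num := by exact_mod_cast Rat.num_pos.2 h3
  have a5 : 0 ≤ Real.logb 2 ((ε.num : ℝ) * δ.num) :=
    Real.logb_nonneg one_lt_two (one_le_mul_of_one_le_of_one_le a3 a4)
  have a6 : (0 : ℝ) ≤ n := Nat.cast_nonneg n
  have a7 : (0 : ℝ) ≤ k := Nat.cast_nonneg k
  have c1 : (k.size : ℝ) ≤ k := by exact_mod_cast (esize_nat k).ge.trans (esize_nat_le_self k)
  have c2 : (n.size : ℝ) ≤ n := by exact_mod_cast (esize_nat n).ge.trans (esize_nat_le_self n)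
  obtain ⟨m', hm'⟩ : ∃ m' : ℝ, m' = (((k + 1) * n : ℕ) : ℝ) + 1 / (ε : ℝ) +
    Real.logb 2 (1 / (δ : ℝ)) + 2 := ⟨_, rfl⟩
  have d1 : m' ≤ m ^ 2 := by
    rw [hm, hm']
    push_cast
    generalize 1 / (ε : ℝ) = u at a1 ⊢
    generalize Real.logb 2 (1 / (δ : ℝ)) = v at a2 ⊢
    nlinarith [mul_nonneg a6 a7]
  have d0 : 0 ≤ m' := by
    have : (0 : ℝ) ≤ ((k + 1) * n : ℕ) := Nat.cast_nonneg _
    linarith
  have d2 : 3 ≤ m := by linarith
  have d3 : (k : ℝ) + 1 ≤ m := by linarith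
  have d5 : 1 ≤ m := by linarith
  have d6 : m ≤ m + Real.logb 2 ((ε.num : ℝ) * δ.num) := by linarith
  have d4 : (8 * k.size + 2 * n.size : ℝ) ≤ 8 * (m + Real.logb 2 ((ε.num : ℝ) * δ.num)) := by
    linarith
  have d7 : m' + Real.logb 2 ((ε.num : ℝ) * δ.num) ≤
    (m + Real.logb 2 ((ε.num : ℝ) * δ.num)) ^ 2 := by nlinarith
  have b1 := ((bounds (n := (k + 1) * n) h1 h2 h3 h4 0 hm').1.trans
    (pow_le_pow_left₀ d0 d1 _)).trans_eq (pow_mul _ _ _).symm
  have b2 := ((bounds (n := (k + 1) * n) h1 h2 h3 h4 1 hm').2.trans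
    (pow_le_pow_left₀ (add_nonneg d0 a5) d7 _)).trans_eq (pow_mul _ _ _).symm
  rw [big_inp]
  generalize tP (inp ((k + 1) * n) ε δ) = t at b1 b2 ⊢
  generalize 3 * esize (inp ((k + 1) * n) ε δ) + 9 * t + 2 = B at b2 ⊢
  generalize m + Real.logb 2 ((ε.num : ℝ) * δ.num) = μ at b2 d4 d6 ⊢
  constructor
  · refine le_trans ?_ (pow_le_pow_right₀ d5 (show 2 * (485 * (0 + 1)) + 1 ≤ _ by omega))
    rw [pow_succ, Nat.cast_mul]
    exact mul_le_mul b1 (by exact_mod_cast d3) (Nat.cast_nonneg _)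
      (pow_nonneg (zero_le_one.trans d5) _)
  · obtain ⟨e4, e5, e6⟩ := pow_facts (d2.trans d6)
    rw [pb, pow_one, show 2 * (485 * (1 + 1)) = 1940 from rfl] at b2
    rw [pow_mul, pow_succ' (μ ^ 1943), pb]
    generalize μ ^ 1943 = y at e5 e6 ⊢
    generalize μ ^ 1940 = z at b2 e4 e5 e6
    push_cast at b2 ⊢
    rw [add_assoc (B : ℝ) (8 * k.size)]
    exact arith c (d2.trans d6) e4 e5 e6 (Nat.cast_nonneg t) (Nat.cast_nonneg B) b2
      (by positivity) (d3.trans d6) (by positivity) d4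

theorem finish {M : Machine} {O : Set Word} {x : Word} {n N t K T T' : ℕ} {ε δ : ℚ} {y : ℝ}
    {out : List Bool → ℕ} (h1 : 0 < ε) (h3 : 0 < δ)
    (h5 : 1 - (1 / 2) ^ lP (inp n ε δ) ≤ frq t fun ρ => |(out ρ : ℝ) - N| ≤ N / eP (inp n ε δ))
    (h6 : ∀ (p : Word → Prop) (P : M.Cfg → Prop),
      (∀ d : M.Cfg, d.l = none → (P d ↔ p (d.stk 0))) →
        M.Res O P (M.first x) K T' (frq t fun ρ => p (out ρ).bits))
    (b1 : (K : ℝ) ≤ y) (b2 : (T' : ℝ) ≤ T) :
    (∀ ρ : Fin T → Bool, (M.run O (M.first x) (List.ofFn ρ)).l = none ∧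
      (M.calls O (M.first x) (List.ofFn ρ) : ℝ) ≤ y) ∧
    (1 - δ : ℝ) * 2 ^ T ≤ Nat.card {ρ : Fin T → Bool // ∃ a : ℕ,
      (M.run O (M.first x) (List.ofFn ρ)).stk 0 = a.bits ∧
      (1 - ε : ℝ) * N ≤ a ∧ (a : ℝ) ≤ (1 + ε) * N} := by
  have b3 := Nat.cast_le.1 b2
  constructor
  · intro ρ
    have h7 := h6 (fun _ => True) (fun d => d.l = none) fun d hd => iff_true_intro hd
    have h8 := h7.2 T b3
    rw [frq_const, ind, if_pos trivial] at h8
    exact ⟨all_of_frq h8 ρ, (Nat.cast_le.2 (h7.1 _)).trans b1⟩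
  · have h7 := (h6 (fun w => ∃ a : ℕ, w = a.bits ∧ (1 - ε : ℝ) * N ≤ a ∧ (a : ℝ) ≤ (1 + ε) * N)
      _ fun d _ => Iff.rfl).2 T b3
    rw [frq_eq T fun ρ => ∃ a : ℕ, (M.run O (M.first x) ρ).stk 0 = a.bits ∧
        (1 - ε : ℝ) * N ≤ a ∧ (a : ℝ) ≤ (1 + ε) * N, h7]
    refine mul_le_mul_of_nonneg_right (le_trans ?_ (h5.trans (frq_mono fun ρ h => ?_)))
      (by positivity)
    · have := lP_ok (n := n) (ε := ε) h3
      linarith
    · have h8 := mul_le_mul_of_nonneg_left (eP_ok (n := n) (δ := δ) h1) (Nat.cast_nonneg N)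
      rw [mul_one_div] at h8
      rw [abs_le] at h
      exact ⟨_, rfl, by linarith [h.1], by linarith [h.2]⟩

end Vale.Agent.N317
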